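import Vale.Agent.P167.H991.B3.Bw
import Vale.Agent.P167.H476.Q.Nn0
import Vale.Agent.P167.H531.Q.Br7

/-!
# P167, general `q`, [BAD] (B3): no conflict pair near the start, at mesh `1`

`b3_n`: if the part of the path and of the boundary which is met by the small box comes from the
start inside of the large box, then there is no conflict pair.
-/

set_option autoImplicit false
set_option linter.unusedVariables false
set_option linter.unusedSectionVars false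

open Set Metric Relation

namespace Vale.Agent.P167.H947.B3

open Vale.Agent.P167.E6 Vale.Agent.P167.E2 Vale.Agent.P167.Fjord
open Vale.Agent.P167.H166
open Vale.Agent.P167.H531.K
open Vale.Agent.P167.H713.Q (oR Dn Sd Cfl)
open Vale.Agent.P167.H174.BD (BN WL oG walk_wall nm_ro_rf)
open Vale.Agent.P167.H991.B3 (t0 wall_path wall_bd)

variable {n : ℕ} {p : ZMod n → ℤ × ℤ} {S : Finset (ℤ × ℤ)} {k : ℕ} {A : Finset (Sym2 (ℤ × ℤ))}
  {z : ℤ × ℤ} {M : ℕ} {δ : ℝ}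

/-- The darts of a box. -/
def bT (z : ℤ × ℤ) (m : ℤ) : Set Medial := {d | nm (H192.ro d.1 - z) ≤ m}

theorem bT_pt {m : ℤ} {d : Medial} (h : d ∈ bT z m) : pt d.1 ∈ R1 z (m + 1) := by
  have h1 := nm_le.1 (show nm (H192.ro d.1 - z) ≤ m from h)
  simp only [Prod.fst_sub, Prod.snd_sub] at h1
  obtain ⟨h2, h3, h4, h5⟩ := h1
  rw [pt_R1]
  have h2' : ((-m : ℤ) : ℝ) ≤ (((H192.ro d.1).1 - z.1 : ℤ) : ℝ) := by exact_mod_cast h2
  have h3' : (((H192.ro d.1).1 - z.1 : ℤ) : ℝ) ≤ m := by exact_mod_cast h3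
  have h4' : ((-m : ℤ) : ℝ) ≤ (((H192.ro d.1).2 - z.2 : ℤ) : ℝ) := by exact_mod_cast h4
  have h5' : (((H192.ro d.1).2 - z.2 : ℤ) : ℝ) ≤ m := by exact_mod_cast h5
  push_cast at h2' h3' h4' h5'
  constructor <;> rw [abs_lt] <;> constructor <;> linarith

theorem bT_nbh {m : ℤ} {d : Medial} (h : d ∈ bT z m) : nbh d ⊆ R1 z (m + 5) := by
  intro w hw
  have h1 := R1_dist (bT_pt h) (mem_closedBall.1 hw)
  exact R1_mono (by linarith) h1

theorem cor_near (a : Node) : |(ps a).re - (ps a).im - ((nod S).cor a).1| ≤ 1 ∧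
    |(ps a).re + (ps a).im - ((nod S).cor a).2| ≤ 1 := by
  cases a with
  | V v =>
    show |(pt v).re - (pt v).im - (H192.ro v).1| ≤ 1 ∧ |(pt v).re + (pt v).im - (H192.ro v).2| ≤ 1
    simp only [pt_re, pt_im, H192.ro]
    push_cast
    constructor <;> rw [abs_le] <;> constructor <;> linarith
  | F f =>
    show |(ctr f).re - (ctr f).im - (H192.rf f).1| ≤ 1 ∧ |(ctr f).re + (ctr f).im - (H192.rf f).2| ≤ 1
    simp only [ctr, H192.rf]
    push_cast
    constructor <;> rw [abs_le] <;> constructor <;> linarith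
  | O d =>
    show |(cpt (5 / 16) d).re - (cpt (5 / 16) d).im - (H192.rf (fc d)).1| ≤ 1 ∧
      |(cpt (5 / 16) d).re + (cpt (5 / 16) d).im - (H192.rf (fc d)).2| ≤ 1
    obtain ⟨v, r⟩ := d
    revert r
    refine forall4 ?_ ?_ ?_ ?_ <;>
      simp only [Fjord.cpt_0, Fjord.cpt_1, Fjord.cpt_2, Fjord.cpt_3, fc_0, fc_1, fc_2, fc_3,
        H192.rf] <;> push_cast <;>
      constructor <;> rw [abs_le] <;> constructor <;> linarith

theorem cor_R1 {a : Node} {s : ℝ} {m : ℤ} (h : ps a ∈ R1 z s) (hm : s + 1 ≤ m) :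
    nm ((nod S).cor a - z) ≤ m := by
  obtain ⟨h1, h2⟩ := h
  obtain ⟨h3, h4⟩ := cor_near (S := S) a
  rw [nm_le]
  simp only [Prod.fst_sub, Prod.snd_sub]
  rw [abs_lt] at h1 h2
  rw [abs_le] at h3 h4
  have a1 : ((-m : ℤ) : ℝ) ≤ ((((nod S).cor a).1 - z.1 : ℤ) : ℝ) := by push_cast; linarith
  have a2 : ((((nod S).cor a).1 - z.1 : ℤ) : ℝ) ≤ m := by push_cast; linarith
  have a3 : ((-m : ℤ) : ℝ) ≤ ((((nod S).cor a).2 - z.2 : ℤ) : ℝ) := by push_cast; linarith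
  have a4 : ((((nod S).cor a).2 - z.2 : ℤ) : ℝ) ≤ m := by push_cast; linarith
  exact ⟨by exact_mod_cast a1, by exact_mod_cast a2, by exact_mod_cast a3, by exact_mod_cast a4⟩

theorem us_ne {T : Set Medial} {a b : Node} (h : ReflTransGen (Us S (oG p k A M T)) a b)
    (ha : a ≠ .O (cs p)) : b ≠ .O (cs p) := by
  induction h with
  | refl => exact ha
  | tail _ h2 ih =>
    obtain ⟨d, ⟨h3, h4⟩, h5, c, rfl, rfl⟩ := h2
    intro h
    have h6 : d = cs p := by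
      unfold ndm at h
      split_ifs at h with h6 h7
      exact Node.O.inj h
    exact h4 0 (Nat.zero_le _) (by rw [run_zero]; exact h6)

section

variable (hp : IsPolygon p) (hS : Encloses p S) (hk : k + 1 < n) (hA : A ⊆ edges S)
include hp hS hk hA

theorem us_join (hδ : 0 < δ) (hM : M ≤ len p k A) {T : Set Medial} {V : Set ℂ}
    (hV : ∀ d ∈ T, nbh d ⊆ V) {a b : Node} (h : ReflTransGen (Us S (oG p k A M T)) a b)
    (ha : ps a ∈ sD1 p k S A δ M ∩ V) : JoinedIn (sD1 p k S A δ M ∩ V) (ps a) (ps b) := by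
  induction h with
  | refl => exact JoinedIn.refl ha
  | tail _ h2 ih =>
    obtain ⟨d, ⟨h3, h4⟩, h5, c, rfl, rfl⟩ := h2
    have h6 := unit_join (δ := δ) hp hS hk hA hδ hM h5 h4 (hV d h3)
    cases c
    · exact ih.trans h6.symm
    · exact ih.trans h6

/-- **A wall of the component is joined to the start.** -/
theorem wall_t0 (hδ : 0 < δ) (hM : M ≤ len p k A) (h0 : 0 < k) {c : Bool} {T : Set Medial}
    {V V' : Set ℂ} (hT : ∀ d ∈ T, pt d.1 ∈ V' ∧ nbh d ⊆ V')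
    (hpath : ∀ l ≤ M, pt (run p k A l).1 ∈ V' → l < len p k A ∧ ∀ t ≤ l, nbh (run p k A t) ⊆ V)
    (hbt : c = true → ∀ i : ℕ, k ≤ i → i < n → pt (p i) ∈ V' → ∀ t : ℕ, i ≤ t → t < n →
      closedBall (pt (p t)) 2 ⊆ V)
    (hbf : c = false → ∀ i : ℕ, i < k → pt (p i) ∈ V' → ∀ t : ℕ, t ≤ i →
      closedBall (pt (p t)) 2 ⊆ V)
    {b : Node} (hb : WL p k S A M T b) (hne : b ≠ .O (cs p))
    (hsd : ∀ x, JoinedIn (sD1 p k S A δ M ∩ V') (ps b) x → (δ : ℂ) * x ∉ Sd p k S A (M + 1) δ c)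
    (hbV : ps b ∈ sD1 p k S A δ M ∩ V') :
    JoinedIn (sD1 p k S A δ M ∩ V) (ps b) (t0 p c) := by
  have bn : ∀ c', BN p k S T c' b → JoinedIn (sD1 p k S A δ M ∩ V) (ps b) (t0 p c) := by
    rintro c' ⟨dd, hdd, i, hi, h1, h2, h3, h4⟩
    have h5 := bd_Sd (A := A) hδ hi h1 h2 h3 (M + 1)
    rw [← h4] at h5
    have h6 : c' = c := by
      by_contra h
      have h7 : (!c') = c := by
        cases c' <;> cases c <;> simp_all
      rw [h7] at h5
      exact hsd _ (JoinedIn.refl hbV) h5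
    subst h6
    have h8 : pt (p i) ∈ V' := by rw [← h1]; exact (hT dd hdd).1
    rw [h4]
    refine wall_bd hp hS hk hA hδ hM hi h1 h2 h3 (fun hc t h9 h10 => ?_) (fun hc t h9 => ?_)
    · exact hbt hc i (h3.2 hc) hi h8 t h9 h10
    · refine hbf hc i ?_ h8 t h9
      by_contra h
      have := h3.1 (not_lt.1 h)
      rw [hc] at this
      exact Bool.false_ne_true this
  rcases hb with ⟨c', hb⟩ | ⟨d, hd, hv, l, hl, h1, c0, h2⟩
  · exact bn c' hb
  · rcases Nat.eq_zero_or_pos l with rfl | hl0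
    · rw [run_zero] at h1
      subst h1
      have hf := fc_cs hp hS
      have hc0 : c0 = true := by
        by_contra h
        have h3 : c0 = false := by simpa using h
        rw [h3, ndm_false' hf] at h2
        exact hne h2
      subst hc0
      refine bn true ⟨cs p, hd, n - 1, by omega, ?_, hf, ?_, h2⟩
      · rw [H991.B3.cast_last (by omega)]
        rfl
      · simp only [iff_true]
        omega
    · have hcs : run p k A l ≠ cs p := by
        intro h3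
        rw [← run_zero (p := p) (k := k) (A := A)] at h3
        have := run_inj' hp hS hk hA l (by omega) 0 (Nat.zero_le _) h3
        omega
      rw [h1] at hd h2
      obtain ⟨g1, g2⟩ := hpath l hl (hT _ hd).1
      have g3 := side_node (δ := δ) hp hS hk hA hδ hM c0 (run_mem (k := k) hp hS hA l) hcs (hT _ hd).2
      have g4 : c0 = c := by
        by_contra h
        have h7 : (!c) = c0 := by
          cases c0 <;> cases c <;> simp_all
        have g5 := sid_Sd (S := S) hp hS hk hA hδ h0 hl g1 hcs c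
        rw [h7] at g5
        refine hsd _ ?_ g5
        rw [h2]
        exact g3.symm
      subst g4
      rw [h2]
      exact wall_path hp hS hk hA hδ hM h0 c0 hl g2 (by rw [← h2]; exact hne)

/-- **No conflict pair near the start (1).** -/
theorem b3_core (h0 : 0 < k) (hδ : 0 < δ) (hM : M ≤ len p k A) {c : Bool} {ρ R : ℕ} {u w : ℂ}
    (hu : u ∈ Dn p k S A (M + 1) δ) (hw : w ∈ Dn p k S A (M + 1) δ) (hu' : u ∈ oR δ z (ρ / 2))
    (hw' : w ∈ oR δ z (ρ / 2)) (nj : w ∉ H713.Q.Cn p k S A (M + 1) δ z R u)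
    (su : Disjoint (H713.Q.Cn p k S A (M + 1) δ z (ρ + 16) u) (Sd p k S A (M + 1) δ c))
    (sw : Disjoint (H713.Q.Cn p k S A (M + 1) δ z (ρ + 16) w) (Sd p k S A (M + 1) δ c))
    (hρR : ρ + 16 ≤ R)
    (hpath : ∀ l ≤ M, pt (run p k A l).1 ∈ R1 z (ρ + 16) →
      l < len p k A ∧ ∀ t ≤ l, nbh (run p k A t) ⊆ R1 z R)
    (hbt : c = true → ∀ i : ℕ, k ≤ i → i < n → pt (p i) ∈ R1 z (ρ + 16) → ∀ t : ℕ, i ≤ t → t < n →
      closedBall (pt (p t)) 2 ⊆ R1 z R)
    (hbf : c = false → ∀ i : ℕ, i < k → pt (p i) ∈ R1 z (ρ + 16) → ∀ t : ℕ, t ≤ i →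
      closedBall (pt (p t)) 2 ⊆ R1 z R) : False := by
  have hρR' : ((ρ : ℝ) + 16) ≤ R := by exact_mod_cast hρR
  have hρ0 : (0 : ℝ) ≤ ρ := Nat.cast_nonneg ρ
  have hT : ∀ d ∈ bT z ((ρ : ℤ) + 8), pt d.1 ∈ R1 z (ρ + 16) ∧ nbh d ⊆ R1 z (ρ + 16) := by
    intro d hd
    have h1 := bT_pt hd
    have h2 := bT_nbh hd
    push_cast at h1 h2
    exact ⟨R1_mono (by linarith) h1, h2.trans (R1_mono (by linarith))⟩
  -- a node next to a point
  have key : ∀ x : ℂ, x ∈ Dn p k S A (M + 1) δ → x ∈ oR δ z (ρ / 2) →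
      ∃ a, Good S a ∧ a ≠ .O (cs p) ∧ JoinedIn (sD1 p k S A δ M ∩ R1 z (ρ + 16)) (x / δ) (ps a) ∧
        nm ((nod S).cor a - z) + 1 ≤ (ρ : ℤ) + 8 := by
    intro x hx hx'
    have h1 : x / δ ∈ sD1 p k S A δ M := (dn_iff hδ).1 (by rw [div_mul hδ]; exact hx)
    have h2 : x / δ ∈ R1 z (ρ / 2) := (mem_oR hδ).1 (by rw [div_mul hδ]; exact hx')
    obtain ⟨a, a1, a2, a3⟩ := H476.N.near_node0 hp hS hk hA hδ hM h1
    have h3 : closedBall (x / (δ : ℂ)) 2 ⊆ R1 z ((ρ : ℝ) / 2 + 4) := by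
      intro y hy
      have := R1_dist h2 (mem_closedBall.1 hy)
      exact R1_mono (by linarith) this
    have h4 : ps a ∈ R1 z ((ρ : ℝ) / 2 + 4) := h3 a3.target_mem.2
    refine ⟨a, a1, a2, a3.mono (inter_subset_inter_right _ (h3.trans (R1_mono (by linarith)))), ?_⟩
    have h5 := cor_R1 (S := S) (m := (ρ : ℤ) + 7) h4 (by push_cast; linarith)
    omega
  obtain ⟨a, a1, a2, a3, a4⟩ := key u hu hu'
  obtain ⟨b, b1, b2, b3, b4⟩ := key w hw hw'
  have hTO : ∀ {e : Node}, nm ((nod S).cor e - z) + 1 ≤ (ρ : ℤ) + 8 → ∀ d, e = .O d →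
      d ∈ bT z ((ρ : ℤ) + 8) := by
    rintro e he d rfl
    have h1 := nm_ro_rf d
    have h2 : nm (H192.rf (fc d) - z) + 1 ≤ (ρ : ℤ) + 8 := he
    have e1 := nm_le.1 h1
    have e2 := nm_le.1 (le_refl (nm (H192.rf (fc d) - z)))
    simp only [Prod.fst_sub, Prod.snd_sub] at e1 e2
    show nm (H192.ro d.1 - z) ≤ _
    rw [nm_le]
    simp only [Prod.fst_sub, Prod.snd_sub]
    omega
  -- from a point to the start
  have key2 : ∀ (x : ℂ) (e : Node), e ≠ .O (cs p) →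
      Disjoint (H713.Q.Cn p k S A (M + 1) δ z (ρ + 16) x) (Sd p k S A (M + 1) δ c) →
      JoinedIn (sD1 p k S A δ M ∩ R1 z (ρ + 16)) (x / δ) (ps e) →
      (∃ b', ReflTransGen (Us S (oG p k A M (bT z ((ρ : ℤ) + 8)))) e b' ∧
        WL p k S A M (bT z ((ρ : ℤ) + 8)) b') →
      JoinedIn (sD1 p k S A δ M ∩ R1 z R) (x / δ) (t0 p c) := by
    rintro x e he hdj hj ⟨b', g1, g2⟩
    have g3 := us_join hp hS hk hA hδ hM (fun d hd => (hT d hd).2) g1 hj.target_mem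
    have g4 := wall_t0 hp hS hk hA hδ hM h0 (V := R1 z R) (V' := R1 z (ρ + 16)) hT hpath hbt hbf g2
      (us_ne g1 he) ?_ g3.target_mem
    · exact ((hj.trans g3).mono (inter_subset_inter_right _ (R1_mono hρR'))).trans g4
    · intro y hy hyS
      have g5 := cn_up hδ ((hj.trans g3).trans hy)
      rw [div_mul hδ] at g5
      exact disjoint_left.1 hdj g5 hyS
  have hfin : ∀ {x y : ℂ}, JoinedIn (sD1 p k S A δ M ∩ R1 z R) (x / δ) (y / δ) →
      y ∈ H713.Q.Cn p k S A (M + 1) δ z R x := by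
    intro x y h
    have := cn_up hδ h
    rwa [div_mul hδ, div_mul hδ] at this
  rcases walk_wall (z := z) (M0 := M) (k := k) (A := A) hp hS (T := bT z ((ρ : ℤ) + 8))
    (m := (ρ : ℤ) + 8) (fun d hd => hd) a1 b1 a4 b4 (hTO a4) (hTO b4) with h1 | h1
  · have h2 := us_join hp hS hk hA hδ hM (fun d hd => (hT d hd).2) h1 a3.target_mem
    exact nj (hfin (((a3.trans h2).trans b3.symm).mono
      (inter_subset_inter_right _ (R1_mono hρR'))))
  rcases walk_wall (z := z) (M0 := M) (k := k) (A := A) hp hS (T := bT z ((ρ : ℤ) + 8))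
    (m := (ρ : ℤ) + 8) (fun d hd => hd) b1 a1 b4 a4 (hTO b4) (hTO a4) with h2 | h2
  · have h3 := us_join hp hS hk hA hδ hM (fun d hd => (hT d hd).2) h2 b3.target_mem
    exact nj (hfin (((b3.trans h3).trans a3.symm).symm.mono
      (inter_subset_inter_right _ (R1_mono hρR'))))
  exact nj (hfin ((key2 u a a2 su a3 h1).trans (key2 w b b2 sw b3 h2).symm))

omit hp hS hk hA in
/-- A point of the domain is joined to a point off the first piece. -/
theorem perturb (hδ : 0 < δ) {u : ℂ} {s : ℝ} (hu : u ∈ Dn p k S A 0 δ) (hr : u ∈ oR δ z s) :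
    ∃ u2, u2 ∈ Dn p k S A 1 δ ∧ u2 ∈ oR δ z s ∧
      JoinedIn (Dn p k S A 0 δ ∩ oR δ z s) u u2 := by
  by_cases h : u ∈ pl p k δ A '' Icc 0 1
  swap
  · exact ⟨u, ⟨hu.1, by simpa using h⟩, hr, JoinedIn.refl ⟨hu, hr⟩⟩
  obtain ⟨ε, h1, h2⟩ := Metric.isOpen_iff.1
    ((H713.Q.isOpen_Dn hδ).inter (H713.Q.isOpen_oR δ z s)) u ⟨hu, hr⟩
  have h3 : u + ((ε / 2 : ℝ) : ℂ) ∈ ball u ε := by
    rw [mem_ball, dist_eq_norm, add_sub_cancel_left, Complex.norm_real, Real.norm_eq_abs,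
      abs_of_pos (by linarith)]
    linarith
  have h4 := h2 h3
  have hB : ∀ x : ℂ, x ∈ pl p k δ A '' Icc 0 1 → x / δ ∈ Bt (cs p) := by
    intro x hx
    have g1 : (δ : ℂ) * (x / δ) ∈ pl p k δ A '' Icc 0 (((0 : ℕ) : ℝ) + 1) := by
      rw [div_mul hδ, Nat.cast_zero, zero_add]
      exact hx
    rcases cov_pl hδ (Nat.zero_le _) g1 with ⟨l, g2, -⟩ | g2 | g2
    · omega
    · exact g2
    · rw [run_zero] at g2
      rw [g2]
      exact bt_self _
  refine ⟨_, ⟨h4.1.1, ?_⟩, h4.2, JoinedIn.of_segment_subset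
    (((convex_ball u ε).segment_subset (mem_ball_self h1) h3).trans h2)⟩
  intro h5
  have h5' : u + ((ε / 2 : ℝ) : ℂ) ∈ pl p k δ A '' Icc 0 1 := by simpa using h5
  have e1 := (H476.N.bt_xi (hB _ h)).1
  have e2 := (H476.N.bt_xi (hB _ h5')).1
  have e3 : (u + ((ε / 2 : ℝ) : ℂ)) / (δ : ℂ) = u / δ + ((ε / 2 / δ : ℝ) : ℂ) := by
    push_cast
    rw [add_div]
  have e4 : 0 < ε / 2 / δ := by positivity
  have r1 : ((u + ((ε / 2 : ℝ) : ℂ)) / (δ : ℂ)).re = (u / δ).re + ε / 2 / δ := by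
    rw [e3, Complex.add_re, Complex.ofReal_re]
  have r2 : ((u + ((ε / 2 : ℝ) : ℂ)) / (δ : ℂ)).im = (u / δ).im := by
    rw [e3, Complex.add_im, Complex.ofReal_im, add_zero]
  generalize cs p = c at e1 e2
  obtain ⟨v, r⟩ := c
  revert r
  refine forall4 ?_ ?_ ?_ ?_ <;> intro e1 e2 <;>
    simp only [H476.N.xi_0, H476.N.xi_1, H476.N.xi_2, H476.N.xi_3, H476.N.et_0, H476.N.et_1,
      H476.N.et_2, H476.N.et_3, r1, r2] at e1 e2 <;> linarith

/-- **No conflict pair near the start.** -/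
theorem b3_n (h0 : 0 < k) (hδ : 0 < δ) {j : ℕ} (hj : j ≤ len p k A + 1) {c : Bool} {ρ R : ℕ}
    {u w : ℂ} (hC : Cfl p k S A j δ c z ρ R u w) (hρR : ρ + 16 ≤ R)
    (hpath : ∀ l ≤ j - 1, pt (run p k A l).1 ∈ R1 z (ρ + 16) →
      l < len p k A ∧ ∀ t ≤ l, nbh (run p k A t) ⊆ R1 z R)
    (hbt : c = true → ∀ i : ℕ, k ≤ i → i < n → pt (p i) ∈ R1 z (ρ + 16) → ∀ t : ℕ, i ≤ t → t < n →
      closedBall (pt (p t)) 2 ⊆ R1 z R)
    (hbf : c = false → ∀ i : ℕ, i < k → pt (p i) ∈ R1 z (ρ + 16) → ∀ t : ℕ, t ≤ i →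
      closedBall (pt (p t)) 2 ⊆ R1 z R) : False := by
  rcases Nat.eq_zero_or_pos j with rfl | hj0
  · obtain ⟨u2, u3, u4, u5⟩ := perturb hδ hC.u_mem hC.u_reg
    obtain ⟨w2, w3, w4, w5⟩ := perturb hδ hC.w_mem hC.w_reg
    have hD : Dn p k S A 1 δ ⊆ Dn p k S A 0 δ := by
      intro x hx
      refine ⟨hx.1, fun h => hx.2 (image_mono (Icc_subset_Icc_right ?_) h)⟩
      exact_mod_cast Nat.zero_le 1
    have hρ0 : (0 : ℝ) ≤ ρ := Nat.cast_nonneg ρ
    have hoR : ∀ {s s' : ℝ}, s ≤ s' → oR δ z s ⊆ oR δ z s' := by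
      intro s s' h x hx
      have h1 := mul_le_mul_of_nonneg_left h hδ.le
      exact ⟨hx.1.trans_le h1, hx.2.trans_le h1⟩
    have hρR' : ((ρ : ℝ) + 16) ≤ R := by exact_mod_cast hρR
    have hCn : ∀ {s : ℝ} {x x2 : ℂ}, (ρ : ℝ) / 2 ≤ s →
        JoinedIn (Dn p k S A 0 δ ∩ oR δ z (ρ / 2)) x x2 →
        H713.Q.Cn p k S A 1 δ z s x2 ⊆ H713.Q.Cn p k S A 0 δ z s x := by
      intro s x x2 hs hx y hy
      have h1 := (cn_joined hδ hy).mono (inter_subset_inter_left _ hD)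
      exact cc_of_joined ((hx.mono (inter_subset_inter_right _ (hoR hs))).trans h1)
    refine b3_core hp hS hk hA h0 hδ (Nat.zero_le _) u3 w3 u4 w4 (fun h => hC.nj ?_)
      (hC.su.mono_left (hCn (by linarith) u5)) (hC.sw.mono_left (hCn (by linarith) w5)) hρR
      hpath hbt hbf
    have h1 : w2 ∈ H713.Q.Cn p k S A 0 δ z R u := hCn (by linarith) u5 h
    exact cc_of_joined ((cn_joined hδ h1).trans
      ((w5.mono (inter_subset_inter_right _ (hoR (by linarith)))).symm))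
  · obtain ⟨M, rfl⟩ : ∃ M, j = M + 1 := ⟨j - 1, by omega⟩
    exact b3_core hp hS hk hA h0 hδ (by omega) hC.u_mem hC.w_mem hC.u_reg hC.w_reg hC.nj hC.su hC.sw
      hρR hpath hbt hbf

end

end Vale.Agent.P167.H947.B3
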