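import Vale.Agent.P167.H476.Q.Nn0

/-!
# P167, general `q`, [BAD] (B3): the walls of one colour near the start are joined

* `wired_walk`: along the wired edges of the polygon to the vertex before the start;
* `free_walk`: along the exterior of the free edges of the polygon to the dart after the start;
* `start_t`, `start_f`: from the side of the first step of the path to these points.
-/

set_option autoImplicit false
set_option linter.unusedVariables false
set_option linter.unusedSectionVars false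

open Set Metric Relation

namespace Vale.Agent.P167.H947.B3

open Vale.Agent.P167.E6 Vale.Agent.P167.E2 Vale.Agent.P167.Fjord
open Vale.Agent.P167.H166
open Vale.Agent.P167.H531.K

variable {n : ℕ} {p : ZMod n → ℤ × ℤ} {S : Finset (ℤ × ℤ)} {k : ℕ} {A : Finset (Sym2 (ℤ × ℤ))}
  {M : ℕ} {δ : ℝ} {V : Set ℂ}

theorem nbh_ball {v : ℤ × ℤ} (h : closedBall (pt v) 4 ⊆ V) (r : Fin 4) : nbh (v, r) ⊆ V :=
  (closedBall_subset_closedBall (by norm_num)).trans h

section

variable (hp : IsPolygon p) (hS : Encloses p S) (hk : k + 1 < n) (hA : A ⊆ edges S)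
include hp hS hk hA

/-- Along an open edge. -/
theorem open_step (hδ : 0 < δ) (hM : M ≤ len p k A) {d : Medial} (h : ahead d ∈ wiredOpen p k A)
    (hV : nbh d ⊆ V) : JoinedIn (sD1 p k S A δ M ∩ V) (pt d.1) (pt (adv d).1) := by
  have hO := obs (S := S) hp hS hA hδ hM
  have he : ahead d ∈ edges S := wired_sub hp hS hA h
  have g1 := sB hO he (fun hh => e_closed hh (Or.inl ⟨rfl, rfl⟩) h)
    (fun hh => e_closed hh (Or.inr ⟨rfl, rfl⟩) h)
  have g2 := sB hO (c := Fjord.par d) (by rw [ahead_par]; exact he)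
    (fun hh => e_closed hh (Or.inl ⟨rfl, rfl⟩) (by rw [ahead_par]; exact h))
    (fun hh => e_closed hh (Or.inr ⟨rfl, rfl⟩) (by rw [ahead_par]; exact h))
  have e1 : Fjord.em (Fjord.par d) = Fjord.em d := em_congr (ahead_par d)
  have e2 : (Fjord.par d).1 = (adv d).1 := rfl
  rw [e1, e2] at g2
  exact (ind_le g1 ((seg_nbh (pt_nbh d) (em_nbh d)).trans hV)).trans
    (ind_le g2 ((seg_nbh (adv_nbh d) (em_nbh d)).trans hV)).symm

omit hS hk hA in
theorem adv_ro (i : ZMod n) : adv (p i, ro p i - 1) = (p (i + 1), ro p i - 1 - 1) := by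
  unfold adv
  simp only [fin4_1]
  rw [← ro_spec hp i]

/-- Along the wired arc. -/
theorem wired_walk (hδ : 0 < δ) (hM : M ≤ len p k A) {i : ℕ} (h1 : k ≤ i) (hi : i < n) :
    ∀ t, i ≤ t → t < n → (∀ t', i ≤ t' → t' < n → closedBall (pt (p t')) 4 ⊆ V) →
    JoinedIn (sD1 p k S A δ M ∩ V) (pt (p i)) (pt (p t)) := by
  intro t ht
  induction t, ht using Nat.le_induction with
  | base =>
    intro _ hV
    exact JoinedIn.refl ⟨pt_free hp hS hk hA hδ hM (p_mem_verts hp hS _),
      hV i le_rfl hi (mem_closedBall_self (by norm_num))⟩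
  | succ t ht ih =>
    intro h2 hV
    refine (ih (by omega) hV).trans ?_
    have h3 : ahead (p (t : ZMod n), ro p (t : ZMod n) - 1) ∈ wiredOpen p k A := by
      refine Or.inr ⟨t, by omega, by omega, ?_⟩
      rw [ahead]
      simp only [fin4_1]
      rw [← ro_spec hp]
    have h4 := open_step hp hS hk hA hδ hM h3 (V := V) (nbh_ball (hV t ht (by omega)) _)
    rw [adv_ro hp] at h4
    have h5 : ((t + 1 : ℕ) : ZMod n) = (t : ZMod n) + 1 := by push_cast; rfl
    rw [h5]
    exact h4

/-- Around a vertex, outside. -/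
theorem rot_step (hδ : 0 < δ) (hM : M ≤ len p k A) {v : ℤ × ℤ} {r : Fin 4} (hv : v ∈ verts S)
    (h1 : face v r ∉ S) (h2 : face v (r + 1) ∉ S) (h3 : v ≠ p (-1)) (hV : nbh (v, r) ⊆ V) :
    JoinedIn (sD1 p k S A δ M ∩ V) (cpt (5 / 16) (v, r)) (cpt (5 / 16) (v, r + 1)) := by
  have hO := obs (S := S) hp hS hA hδ hM
  have h4 := sE hO (c := (v, r)) hv
    (fun x y hxy hF => not_open_ext (wired_sub hp hS hA) h2 h1 (e_open hxy hF))
    (fun h => h3 (congrArg Prod.fst h)) (fun h => h3 (congrArg Prod.fst h))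
  exact ind_le h4 ((seg_nbh (cpt_nbh (by norm_num) (by norm_num) _)
    (crot_nbh (by norm_num) (by norm_num) (v, r))).trans hV)

theorem ext_rot (hδ : 0 < δ) (hM : M ≤ len p k A) {i : ZMod n} (hi : p i ≠ p (-1))
    (hV : closedBall (pt (p i)) 4 ⊆ V) : ∀ (m : ℕ) (r : Fin 4), (ro p i - 1 - r).val = m →
      face (p i) r ∉ S →
      JoinedIn (sD1 p k S A δ M ∩ V) (cpt (5 / 16) (p i, r)) (cpt (5 / 16) (p i, ro p i - 1)) := by
  have hv : p i ∈ verts S := p_mem_verts hp hS i
  have hrefl : JoinedIn (sD1 p k S A δ M ∩ V) (cpt (5 / 16) (p i, ro p i - 1))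
      (cpt (5 / 16) (p i, ro p i - 1)) :=
    JoinedIn.refl ⟨c516_free hp hS hA hδ hM hv fun h => hi (congrArg Prod.fst h),
      nbh_ball hV _ (cpt_nbh (by norm_num) (by norm_num) _)⟩
  have key : ∀ a r : Fin 4, a = r ∨ (a - r).val = (a - (r + 1)).val + 1 := by decide
  intro m
  induction m with
  | zero =>
    intro r hr hf
    rcases key (ro p i - 1) r with h | h
    · subst h
      exact hrefl
    · omega
  | succ m ih =>
    intro r hr hf
    rcases key (ro p i - 1) r with h | h
    · subst h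
      exact hrefl
    · have hne : r ≠ ro p i - 1 := by
        intro h'
        subst h'
        rw [sub_self] at hr
        simp at hr
      have h2 : face (p i) (r + 1) ∉ S := by
        intro h2
        apply hne
        have h3 := (enc_iff hp hS).1 ⟨h2, by rw [fin4_2]; exact hf⟩
        rw [← h3, fin4_2]
      exact (rot_step hp hS hk hA hδ hM hv hf h2 hi (nbh_ball hV _)).trans
        (ih (r + 1) (by omega) h2)

theorem ext_rot' (hδ : 0 < δ) (hM : M ≤ len p k A) {i : ZMod n} (hi : p i ≠ p (-1))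
    (hV : closedBall (pt (p i)) 4 ⊆ V) {r : Fin 4} (hf : face (p i) r ∉ S) :
    JoinedIn (sD1 p k S A δ M ∩ V) (cpt (5 / 16) (p i, r)) (cpt (5 / 16) (p i, ro p i - 1)) :=
  ext_rot hp hS hk hA hδ hM hi hV _ r rfl hf

omit hS hA in
theorem ne_start {i : ℕ} (hi : i + 1 < n) : p (i : ZMod n) ≠ p (-1) := by
  intro h
  have h1 := hp.2.1 h
  have h2 : (-1 : ZMod n) = ((n - 1 : ℕ) : ZMod n) := by
    rw [Nat.cast_sub (by omega)]
    simp
  rw [h2] at h1
  have := cast_inj (by omega) (by omega) (by omega) h1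
  omega

/-- **Along the free arc.** -/
theorem free_walk (hδ : 0 < δ) (hM : M ≤ len p k A) : ∀ i : ℕ, i < k →
    (∀ t ≤ i, closedBall (pt (p (t : ZMod n))) 4 ⊆ V) → ∀ r, face (p i) r ∉ S →
    JoinedIn (sD1 p k S A δ M ∩ V) (cpt (5 / 16) (p i, r)) (cpt (5 / 16) (adv (cs p))) := by
  intro i
  induction i with
  | zero =>
    intro h0 hV r hr
    have h1 := ne_start hp hk (i := 0) (by omega)
    have h2 : adv (cs p) = (p ((0 : ℕ) : ZMod n), ro p (-1) - 1 - 1) := by
      have := adv_ro hp (-1 : ZMod n)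
      rw [neg_add_cancel] at this
      rw [Nat.cast_zero]
      exact this
    have h3 : face (p ((0 : ℕ) : ZMod n)) (ro p (-1) - 1 - 1) ∉ S := by
      have h4 : fc (adv (cs p)) ∉ S := by
        rw [fc_advI]
        exact fc_cs hp hS
      rw [h2] at h4
      exact h4
    rw [h2]
    exact (ext_rot' hp hS hk hA hδ hM h1 (hV 0 le_rfl) hr).trans
      (ext_rot' hp hS hk hA hδ hM h1 (hV 0 le_rfl) h3).symm
  | succ i ih =>
    intro h0 hV r hr
    have h1 := ne_start hp hk (i := i + 1) (by omega)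
    have h1' := ne_start hp hk (i := i) (by omega)
    have h5 : ((i + 1 : ℕ) : ZMod n) = (i : ZMod n) + 1 := by push_cast; rfl
    have h2 := adv_ro hp (i : ZMod n)
    rw [← h5] at h2
    have h3 : face (p ((i + 1 : ℕ) : ZMod n)) (ro p (i : ZMod n) - 1 - 1) ∉ S := by
      have h4 : fc (adv (p (i : ZMod n), ro p (i : ZMod n) - 1)) ∉ S := by
        rw [fc_advI]
        exact (enc_out hp hS).2
      rw [h2] at h4
      exact h4
    refine ((ext_rot' hp hS hk hA hδ hM h1 (hV _ le_rfl) hr).trans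
      (ext_rot' hp hS hk hA hδ hM h1 (hV _ le_rfl) h3).symm).trans (JoinedIn.trans ?_
      (ih (by omega) (fun t ht => hV t (by omega)) _ (enc_out hp hS).2))
    have hO := obs (S := S) hp hS hA hδ hM
    have h6 : ahead (p (i : ZMod n), ro p (i : ZMod n) - 1) ∈ edges S := by
      rw [ahead]
      simp only [fin4_1]
      rw [← ro_spec hp]
      exact p_edge hp hS _
    have h7 := sD hO h6 (fun h => h1' (congrArg Prod.fst h))
      (fun h => h1 (by rw [h2] at h; exact congrArg Prod.fst h))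
    have h8 := ind_le (V := V) h7 ((seg_nbh (cpt_nbh (by norm_num) (by norm_num) _)
        (cadv_nbh (by norm_num) (by norm_num) _)).trans (nbh_ball (hV i (by omega)) _))
    rw [h2] at h8
    exact h8.symm

/-- The start, wired side. -/
theorem start_t (hδ : 0 < δ) (hM : M ≤ len p k A) (hV : nbh (cs p) ⊆ V) :
    JoinedIn (sD1 p k S A δ M ∩ V) (pt (run p k A 1).1) (pt (p (-1))) := by
  rcases next_step (wiredOpen p k A) (cs p) with ⟨h1, h2, -⟩ | ⟨h1, h2, -⟩
  · rw [run_succ, run_zero, h2]
    exact (open_step hp hS hk hA hδ hM h1 hV).symm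
  · rw [run_succ, run_zero, h2]
    exact JoinedIn.refl ⟨pt_free hp hS hk hA hδ hM (p_mem_verts hp hS _), hV (pt_nbh (cs p))⟩

/-- The start, free side. -/
theorem start_f (hδ : 0 < δ) (hM : M ≤ len p k A) (hV : closedBall (pt (p (-1))) 4 ⊆ V) :
    JoinedIn (sD1 p k S A δ M ∩ V) (cpt (5 / 16) (run p k A 1)) (cpt (5 / 16) (adv (cs p))) := by
  have hO := obs (S := S) hp hS hA hδ hM
  have e0 : (adv (cs p)).1 = p ((0 : ℕ) : ZMod n) := by
    have := adv_ro hp (-1 : ZMod n)
    rw [neg_add_cancel] at this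
    rw [Nat.cast_zero]
    exact congrArg Prod.fst this
  have hne : (adv (cs p)).1 ≠ p (-1) := by
    rw [e0]
    exact ne_start hp hk (by omega)
  have hVc : nbh (cs p) ⊆ V := nbh_ball hV _
  have hVa : nbh (adv (cs p)) ⊆ V := by
    refine Subset.trans ?_ hV
    intro x hx
    have h1 := adv_nbh (cs p)
    have h2 := mem_closedBall.1 h1
    have h3 := mem_closedBall.1 hx
    rw [mem_closedBall]
    have h4 := dist_triangle x (pt (adv (cs p)).1) (pt (cs p).1)
    have h5 : (cs p).1 = p (-1) := rfl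
    rw [h5] at h2 h4
    linarith
  rcases next_step (wiredOpen p k A) (cs p) with ⟨h1, h2, -⟩ | ⟨h1, h2, -⟩
  · rw [run_succ, run_zero, h2]
    exact JoinedIn.refl ⟨c516_free hp hS hA hδ hM
      (by rw [e0]; exact p_mem_verts hp hS _) (fun h => hne (congrArg Prod.fst h)),
      hVa (cpt_nbh (by norm_num) (by norm_num) _)⟩
  · rw [run_succ, run_zero, h2]
    have f1 : fc (rot (cs p)) ∈ S := by
      show face (p (-1)) (ro p (-1) - 1 + 1) ∈ S
      rw [fin4_1]
      exact (enc_out hp hS).1
    have f2 : fc (Fjord.par (cs p)) = fc (rot (cs p)) := by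
      rw [← adv_par, fc_advI]
    have r1 : rot (Fjord.par (cs p)) = adv (cs p) := by
      have : ∀ r : Fin 4, r + 2 + 1 = r - 1 := by decide
      show ((cs p).1 + dir ((cs p).2 + 1), (cs p).2 + 2 + 1) =
        ((cs p).1 + dir ((cs p).2 + 1), (cs p).2 - 1)
      rw [this]
    have g1 : rot (cs p) ≠ cs p := by
      intro h
      have h3 : (cs p).2 + 1 = (cs p).2 := congrArg Prod.snd h
      have : ∀ r : Fin 4, r + 1 ≠ r := by decide
      exact this _ h3
    have g2 : Fjord.par (cs p) ≠ cs p := fun h => hne (congrArg Prod.fst h)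
    have hv : (Fjord.par (cs p)).1 ∈ verts S := by
      show (adv (cs p)).1 ∈ verts S
      rw [e0]
      exact p_mem_verts hp hS _
    have k1 := sH hO f1 g1
    have k2 := sH hO (c := Fjord.par (cs p)) (by rw [f2]; exact f1) g2
    have k3 := sE hO (c := Fjord.par (cs p)) hv
      (fun x y hxy hF => h1 (by have := e_open hxy hF; rwa [ahead_par] at this)) g2
      (by rw [r1]; exact fun h => hne (congrArg Prod.fst h))
    rw [f2] at k2
    rw [r1] at k3
    have n1 : cpt (5 / 16) (Fjord.par (cs p)) ∈ nbh (adv (cs p)) :=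
      cpt_nbh (by norm_num) (by norm_num) (Fjord.par (cs p))
    refine (ind_le k1 ?_).trans ((ind_le k2 ?_).symm.trans (ind_le k3 ?_))
    · exact (seg_nbh (crot_nbh (by norm_num) (by norm_num) (cs p))
        (by have := ctr_nbh (rot (cs p)); exact this)).trans hVc
    · refine (seg_nbh n1 ?_).trans hVa
      have := ctr_nbh (Fjord.par (cs p))
      rw [f2] at this
      exact this
    · exact (seg_nbh n1 (cpt_nbh (by norm_num) (by norm_num) (adv (cs p)))).trans hVa

end

end Vale.Agent.P167.H947.B3
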